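import Vale.Agent.Lib.P099.Core

/-!
P099: in a triangle all of whose angles are irrational multiples of pi, every continuous first
integral of the billiard flow is constant.
-/

/-- Every continuous first integral of the billiard flow in a triangle with all angles irrational
multiples of pi is constant. -/
theorem Vale.Agent.Results.P099.ContinuousIntegrals.result (p : Fin 3 → ℂ)
    (hp : AffineIndependent ℝ p)
    (hirr : ∀ i, Irrational (EuclideanGeometry.angle (p (i + 1)) (p i) (p (i + 2)) / Real.pi))
    (f : ℂ → ℂ → ℝ)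
    (hf : ContinuousOn (fun z : ℂ × ℂ => f z.1 z.2)
      (Vale.Agent.P099.table p ×ˢ Metric.sphere 0 1))
    (hinv : ∀ (t : ℝ) (x θ y φ : ℂ), Vale.Agent.P099.Flow p t x θ y φ → f y φ = f x θ) :
    ∃ c : ℝ, ∀ x ∈ Vale.Agent.P099.table p, ∀ θ : ℂ, ‖θ‖ = 1 → f x θ = c :=
  Vale.Agent.P099.main p hp hirr f hf hinv
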